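import Vale.Agent.P042.R2.H757.Spec

/-!
P042.MultiplicativeStatistics, row ALL.
-/

set_option autoImplicit false

namespace Vale.Agent.P042.H757.All868

open Finset

/-- completion to a `k`-th power by a bounded factor -/
theorem completion (k B : ℕ) (hk : 1 ≤ k) : ∃ D0 : ℕ, ∀ u : ℕ, 1 ≤ u →
    (∀ q : ℕ, q.Prime → q ∣ u → q ≤ B) →
    ∃ D t : ℕ, 1 ≤ D ∧ D ≤ D0 ∧ 1 ≤ t ∧ u * D = t ^ k := by
  classical
  set S : Finset ℕ := (Finset.range (B + 1)).filter Nat.Prime with hS
  refine ⟨∏ p ∈ S, p ^ k, fun u hu hB => ?_⟩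
  have hpos : ∀ p ∈ S, 1 ≤ p := fun p hp => (mem_filter.1 hp).2.one_lt.le
  refine ⟨∏ p ∈ S, p ^ (k - u.factorization p % k),
    ∏ p ∈ S, p ^ (u.factorization p / k + 1), ?_, ?_, ?_, ?_⟩
  · exact Nat.succ_le_of_lt (Finset.prod_pos fun p hp => pow_pos (hpos p hp) _)
  · exact Finset.prod_le_prod' fun p hp => Nat.pow_le_pow_right (hpos p hp) (Nat.sub_le _ _)
  · exact Nat.succ_le_of_lt (Finset.prod_pos fun p hp => pow_pos (hpos p hp) _)
  · have hu0 : u ≠ 0 := by omega
    have h1 : u = ∏ p ∈ S, p ^ u.factorization p := by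
      conv_lhs => rw [← Nat.prod_factorization_pow_eq_self hu0]
      refine Finsupp.prod_of_support_subset _ ?_ _ (fun _ _ => pow_zero _)
      intro p hp
      rw [Nat.support_factorization] at hp
      have h2 := Nat.prime_of_mem_primeFactors hp
      have h3 := Nat.dvd_of_mem_primeFactors hp
      rw [hS, mem_filter, mem_range]
      exact ⟨Nat.lt_succ_of_le (hB p h2 h3), h2⟩
    refine (congrArg (· * ∏ p ∈ S, p ^ (k - u.factorization p % k)) h1).trans ?_
    rw [← Finset.prod_mul_distrib, ← Finset.prod_pow]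
    refine Finset.prod_congr rfl fun p hp => ?_
    rw [← pow_add, ← pow_mul]
    congr 1
    have h5 := Nat.div_add_mod (u.factorization p) k
    have h6 := Nat.mod_lt (u.factorization p) (by omega : 0 < k)
    rw [Nat.add_mul, one_mul, Nat.mul_comm (u.factorization p / k) k]
    omega

/-- bound for the least primes of the colours -/
noncomputable def bd {r : ℕ} (col : ℕ → Fin r) : ℕ := by
  classical
  exact Finset.univ.sup fun w : Fin r =>
    if h : ∃ q : ℕ, q.Prime ∧ col q = w then Nat.find h else 0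

theorem exists_small {r : ℕ} (col : ℕ → Fin r) (q : ℕ) (hq : q.Prime) :
    ∃ s : ℕ, s.Prime ∧ col s = col q ∧ s ≤ q ∧ s ≤ bd col := by
  classical
  have h : ∃ q' : ℕ, q'.Prime ∧ col q' = col q := ⟨q, hq, rfl⟩
  refine ⟨Nat.find h, (Nat.find_spec h).1, (Nat.find_spec h).2, Nat.find_min' h ⟨hq, rfl⟩, ?_⟩
  have h1 := Finset.le_sup (f := fun w : Fin r =>
    if h : ∃ q : ℕ, q.Prime ∧ col q = w then Nat.find h else 0) (Finset.mem_univ (col q))
  simp only [dif_pos h] at h1
  unfold bd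
  convert h1 using 2

theorem reduce {r : ℕ} (col : ℕ → Fin r) (N : ℕ) (A : Finset ℕ) (hA : A ⊆ Icc 1 N)
    (hE : ExchAll col N A) (p : ℕ) (u : ℕ) :
    ∀ c : ℕ, 1 ≤ c → (∀ q : ℕ, q.Prime → q ∣ c → q ≤ bd col) → u * c * p ∈ A →
      ∃ u' : ℕ, 1 ≤ u' ∧ (∀ q : ℕ, q.Prime → q ∣ u' → q ≤ bd col) ∧ u' * p ∈ A := by
  induction u using induction_on_primes with
  | zero =>
    intro c _ _ h
    have := mem_Icc.1 (hA h)
    simp at this
  | one =>
    intro c hc hB h
    exact ⟨c, hc, hB, by simpa using h⟩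
  | prime_mul q a hq ih =>
    intro c hc hB h
    obtain ⟨s, hs, hcs, hsq, hsb⟩ := exists_small col q hq
    have h1 : (a * c * p) * q ∈ A := by
      have : q * a * c * p = (a * c * p) * q := by ring
      rwa [this] at h
    have h2 : (a * c * p) * s ≤ N :=
      le_trans (Nat.mul_le_mul_left _ hsq) (mem_Icc.1 (hA h1)).2
    have h3 := hE (a * c * p) q s hq hs hcs.symm h1 h2
    refine ih (c * s) (Nat.mul_pos hc hs.pos) ?_ ?_
    · intro q' hq' hd
      rcases (Nat.Prime.dvd_mul hq').1 hd with hd | hd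
      · exact hB q' hq' hd
      · rw [(Nat.prime_dvd_prime_iff_eq hq' hs).1 hd]
        exact hsb
    · have : a * (c * s) * p = a * c * p * s := by ring
      rwa [this]

end Vale.Agent.P042.H757.All868

namespace Vale.Agent.P042.H757

open Finset

/-- Row ALL. -/
theorem rowAll (h : StPair) : StAll := by
  classical
  intro a k ha hk r col hcol
  obtain ⟨D0, hD0⟩ := All868.completion k (All868.bd col) (by omega)
  have key : ∀ v : Fin r, ∃ Q : ℕ, ∀ (N : ℕ) (A : Finset ℕ), A ⊆ Icc 1 N → ExchAll col N A →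
      MonoFree a k A → ∀ n ∈ A, ∀ p : ℕ, p.Prime → col p = v → p ∣ n → p ≤ Q := by
    intro v
    rcases hcol v with hf | hr
    · obtain ⟨Q, hQ⟩ := hf.bddAbove
      exact ⟨Q, fun N A _ _ _ n _ p hp hv _ => hQ ⟨hp, hv⟩⟩
    · obtain ⟨N0, hN0⟩ := h a k ha hk r col v hr (1 / 2) (by norm_num) (by norm_num)
      refine ⟨max N0 ((a * D0) ^ 2), fun N A hA hE hM n hn p hp hv hpn => ?_⟩
      by_contra hlt
      push Not at hlt
      set M := max N0 ((a * D0) ^ 2) with hMdef
      obtain ⟨u, rfl⟩ := hpn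
      obtain ⟨u', hu', hB', hA'⟩ := All868.reduce col N A hA hE p u 1 le_rfl
        (fun q hq hd => absurd (Nat.le_of_dvd one_pos hd) (by have := hq.two_le; omega))
        (by rw [mul_one, mul_comm]; exact hn)
      obtain ⟨D, t, hD1, hDD, ht, hDt⟩ := hD0 u' hu' hB'
      have hcond : ((a * 1 * D : ℕ) : ℝ) ≤ (M : ℝ) ^ (1 - 1 / 2 : ℝ) := by
        have h1 : ((a * 1 * D : ℕ) : ℝ) ≤ ((a * D0 : ℕ) : ℝ) := by
          rw [mul_one]
          exact_mod_cast Nat.mul_le_mul_left a hDD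
        refine h1.trans ?_
        have h2 : (((a * D0) ^ 2 : ℕ) : ℝ) ≤ (M : ℝ) := by exact_mod_cast le_max_right _ _
        have h3 : ((a * D0 : ℕ) : ℝ) = ((((a * D0) ^ 2 : ℕ) : ℝ)) ^ (1 - 1 / 2 : ℝ) := by
          rw [Nat.cast_pow, ← Real.rpow_natCast, ← Real.rpow_mul (Nat.cast_nonneg _)]
          norm_num
        rw [h3]
        exact Real.rpow_le_rpow (Nat.cast_nonneg _) h2 (by norm_num)
      obtain ⟨p1, q1, m, hp1, hq1, hv1, hv2, _, _, hm, heq, hle⟩ :=
        hN0 M (le_max_left _ _) 1 D le_rfl hD1 hcond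
      rw [one_mul] at hle
      have hpN : u' * p ≤ N := (mem_Icc.1 (hA hA')).2
      have hp1q1 : p1 ≤ q1 := by rw [heq]; exact Nat.le_add_right _ _
      have e1 : u' * p1 ∈ A := hE u' p p1 hp hp1 (by rw [hv, hv1]) hA'
        ((Nat.mul_le_mul_left _ (by omega)).trans hpN)
      have e2 : u' * q1 ∈ A := hE u' p q1 hp hq1 (by rw [hv, hv2]) hA'
        ((Nat.mul_le_mul_left _ (by omega)).trans hpN)
      refine hM (u' * p1) e1 (u' * q1) e2 (t * m) (Nat.mul_pos ht hm) ?_
      rw [heq, mul_pow, ← hDt]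
      ring
  choose Q hQ using key
  refine ⟨Finset.univ.sup Q, fun N A hA hE hM n hn p hp hpn => ?_⟩
  exact (hQ (col p) N A hA hE hM n hn p hp rfl hpn).trans
    (Finset.le_sup (f := Q) (Finset.mem_univ (col p)))

end Vale.Agent.P042.H757
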